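import Vale.Agent.P354K.Nw
import Vale.Agent.P354KW.Alg

/-!
Block SPEC (helper11): weighted estimates for the derivatives D and the divergence form.
-/

set_option linter.all false

open scoped ContDiff
open Set

namespace Vale.Agent.P354KS

open Vale.Agent.P354H (X3 pd pdl pd_sm pdl_sm)
open Vale.Agent.P354K

/-- One step down in the scale of weights. -/
noncomputable def dn (W : X3 → ℝ) (z : X3) : ℝ := W z * (∏ i, gz i z)⁻¹

theorem pg_pos (z : X3) : 0 < ∏ i, gz i z := Finset.prod_pos fun i _ => gz_pos i z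

theorem dn_cont {W : X3 → ℝ} (hW : Continuous W) : Continuous (dn W) :=
  hW.mul ((continuous_finset_prod _ fun i _ => (gz_sm i).continuous).inv₀ fun z => (pg_pos z).ne')

theorem ww_dn (ψ : X3 → ℝ) : ww ψ = dn (dn (sw ψ)) := funext fun z => by
  rw [ww_eq, dn, dn, Finset.prod_pow, sq, mul_inv, mul_assoc]

theorem gz_le_pg (j : Fin 3) (z : X3) : gz j z ≤ 4 * ∏ i, gz i z := by
  have h : ∀ a b, 1 / 4 ≤ gz a z * gz b z := fun a b => by nlinarith [gz_ge a z, gz_ge b z]
  rw [Fin.prod_univ_three]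
  fin_cases j
  · show gz 0 z ≤ _; nlinarith [h 1 2, gz_pos 0 z]
  · show gz 1 z ≤ _; nlinarith [h 0 2, gz_pos 1 z]
  · show gz 2 z ≤ _; nlinarith [h 0 1, gz_pos 2 z]

theorem dn_le (W : X3 → ℝ) (j : Fin 3) (z : X3) : |dn W z| ≤ 4 * (|(gz j z)⁻¹| * |W z|) := by
  rw [dn, abs_mul, abs_of_pos (inv_pos.2 (pg_pos z)), abs_of_pos (inv_pos.2 (gz_pos j z)),
    ← mul_assoc, mul_comm]
  refine mul_le_mul_of_nonneg_right ?_ (abs_nonneg _)
  rw [← div_eq_mul_inv, inv_eq_one_div, div_le_div_iff₀ (pg_pos z) (gz_pos j z), one_mul]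
  exact gz_le_pg j z

theorem dn_le' (W : X3 → ℝ) (z : X3) : |dn W z| ≤ 8 * |W z| := by
  refine (dn_le W 0 z).trans ?_
  rw [abs_of_pos (inv_pos.2 (gz_pos 0 z))]
  have : (gz 0 z)⁻¹ ≤ 2 := inv_le_of_inv_le₀ two_pos (by simpa using gz_ge 0 z)
  nlinarith [abs_nonneg (W z)]

theorem ex_sw (k : ℕ) : ∃ s, 0 ≤ s ∧ ∀ j, Sw (fun z => (gz j z)⁻¹) k (gz j) s := by
  have h : ∀ j, ∃ s, Sw (fun z => (gz j z)⁻¹) k (gz j) s := fun j => by
    obtain ⟨s, hs⟩ := words_bound (F := fun α C => ∀ z, |(gz j z)⁻¹ * pdl α (gz j) z| ≤ C)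
      (fun α a b hab h z => (h z).trans hab) (fun α => by
        obtain ⟨t, ht, e1⟩ := (lw_gz j).pdl α
        obtain ⟨C, -, hC⟩ := ht.bd
        refine ⟨C, fun z => ?_⟩
        rw [e1, mul_left_comm, inv_mul_cancel₀ (gz_pos j z).ne', mul_one]
        exact hC () z) k
    exact ⟨s, gz_sm j, hs⟩
  choose s hs using h
  exact ⟨∑ j, s j, Finset.sum_nonneg fun j _ => (hs j).nonneg, fun j => (hs j).mono le_rfl
    (Finset.single_le_sum (fun j _ => (hs j).nonneg) (Finset.mem_univ j))⟩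

/-- The identity or a derivative. -/
noncomputable def Do : Option (Fin 3) → (X3 → ℝ) → X3 → ℝ
  | none, u => u
  | some j, u => D j u

/-- The estimates for one step. -/
structure Step (K : ℕ → ℝ) : Prop where
  pos : ∀ n, 0 ≤ K n
  nw : ∀ {W n v c} (a), Continuous W → Nw W (n + 1) v c → Nw (dn W) n (Do a v) (K n * c)
  tw : ∀ {W n v t c} (a), Continuous W → Tw W (n + 2) v t → Nw W (n + 1) v c →
    Tw (dn W) (n + 1) (Do a v) (4 * t + K n * c)

theorem ex_step : ∃ K, Step K := by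
  choose s s0 hs using ex_sw
  have p : ∀ n : ℕ, 0 ≤ (n + 1 : ℝ) * (2 ^ n * (4 * s (n + 1))) := fun n => by
    have := s0 (n + 1); positivity
  refine ⟨fun n => 8 + (n + 1) * (2 ^ n * (4 * s (n + 1))), fun n => add_nonneg (by norm_num) (p n),
    fun {W n v c} a hW h => ?_, fun {W n v t c} a hW ht h => ?_⟩
  · have c0 := h.nonneg
    cases a with
    | none =>
      exact ((h.low n.le_succ).wt (dn_cont hW) (by norm_num) (dn_le' W)).le (by nlinarith [p n])
    | some j =>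
      refine (prodS (dn_cont hW) (by norm_num) (dn_le W j) ((hs _ j).low n.le_succ) (h.pd j)).le ?_
      have : 0 ≤ (n : ℝ) * (2 ^ n * (4 * s (n + 1) * c)) := by have := s0 (n + 1); positivity
      nlinarith
  · have c0 := h.nonneg
    have t0 := ht.nonneg
    cases a with
    | none => exact (h.wt (dn_cont hW) (by norm_num) (dn_le' W)).tw.le (by nlinarith [p n])
    | some j =>
      intro α hα
      have r1 := commS (dn_cont hW) (by norm_num) (dn_le W j) α (hs _ j) (h.pd j) hα.le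
      have r2 := l2_mul (dn_cont hW) (by norm_num) (dn_le W j) (gz_sm j).continuous
        (pdl_sm α (pd_sm j h.1)).continuous (s := 1) (fun z => by
          rw [inv_mul_cancel₀ (gz_pos j z).ne', abs_one]) (ht.pd j α hα)
      refine ((r2.add r1).congr fun z => ?_).le ?_
      · show dn W z * pdl α (fun y => gz j y * pd j v y) z = _
        ring
      · rw [hα]
        push_cast
        nlinarith

/-! ### The divergence form -/

variable {ι κ : Type} [Fintype ι] (b2 : ι → κ → Fin 3 → Fin 3 → X3 → ℝ)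
  (b1 : ι → κ → Fin 3 → X3 → ℝ) (b0 : ι → κ → X3 → ℝ)

noncomputable def c1 (i : ι) (k : κ) (j : Fin 3) (z : X3) : ℝ :=
  ∑ l, (D l (b2 i k j l) z + D l (b2 i k l j) z) - b1 i k j z

noncomputable def c0 (i : ι) (k : κ) (z : X3) : ℝ :=
  b0 i k z + ∑ j, D j (c1 b2 b1 i k j) z - ∑ j, ∑ l, D l (D j (b2 i k j l)) z

theorem lop_eq {v : ι → X3 → ℝ} (hv : ∀ i, Sm (v i)) (h2 : ∀ i k j l, Sm (b2 i k j l))
    (h1 : ∀ i k j, Sm (b1 i k j)) (k : κ) (z : X3) :
    Lop b2 (c1 b2 b1) (c0 b2 b1 b0) v k z = ∑ i, (∑ j, ∑ l, b2 i k j l z * D l (D j (v i)) z +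
      ∑ j, b1 i k j z * D j (v i) z + b0 i k z * v i z) := by
  refine Finset.sum_congr rfl fun i _ => ?_
  have s1 : ∀ j, Sm (c1 b2 b1 i k j) := fun j =>
    (ContDiff.sum fun l _ => (D_sm l (h2 i k j l)).add (D_sm l (h2 i k l j))).sub (h1 i k j)
  have e : ∀ j l, D l (D j fun y => b2 i k j l y * v i y) z = D l (D j (b2 i k j l)) z * v i z +
      D j (b2 i k j l) z * D l (v i) z + (D l (b2 i k j l) z * D j (v i) z +
        b2 i k j l z * D l (D j (v i)) z) := fun j l => by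
    rw [D_mul j (h2 i k j l) (hv i), D_add l ((D_sm j (h2 i k j l)).mul (hv i))
      ((h2 i k j l).mul (D_sm j (hv i))), D_mul l (D_sm j (h2 i k j l)) (hv i),
      D_mul l (h2 i k j l) (D_sm j (hv i))]
  simp only [e, D_mul _ (s1 _) (hv i), c0]
  simp only [c1, Fin.sum_univ_three]
  ring

end Vale.Agent.P354KS
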