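import Vale.Agent.P354KS.Est

/-!
Block SPEC (helper11): the linearised constraints as one second order operator.
-/

set_option linter.all false

open scoped ContDiff
open Set

namespace Vale.Agent.P354KS

open Vale.Agent.P354H (X3 pd pdl)
open Vale.Agent.P354K Vale.Agent.P354KW

/-- The unknowns. -/
abbrev Ix : Type := Eq4 × Fin 3 × Fin 3

/-- The coordinates. -/
abbrev pr {α : Type} (t : α) : (α → ℝ) →ₗ[ℝ] ℝ := LinearMap.proj t

/-- The jets as linear forms in the unknowns, their first and their second derivatives. -/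
noncomputable def j0 : Jt → (Ix → ℝ) →ₗ[ℝ] ℝ
  | .h a b => pr (none, a, b) + pr (none, b, a)
  | _ => 0
noncomputable def j1 : Jt → (Ix × Fin 3 → ℝ) →ₗ[ℝ] ℝ
  | .dh i a b => pr ((none, a, b), i) + pr ((none, b, a), i)
  | .p a b => ∑ j, (pr ((some j, a, b), j) + pr ((some j, b, a), j))
  | _ => 0
noncomputable def j2 : Jt → (Ix × Fin 3 × Fin 3 → ℝ) →ₗ[ℝ] ℝ
  | .ddh i k a b => pr ((none, a, b), k, i) + pr ((none, b, a), k, i)
  | .dp i a b => ∑ j, (pr ((some j, a, b), j, i) + pr ((some j, b, a), j, i))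
  | _ => 0

theorem lin_sum {α : Type} [Fintype α] [DecidableEq α] (f : (α → ℝ) →ₗ[ℝ] ℝ) (u : α → ℝ) :
    f u = ∑ t, f (Pi.single t 1) * u t := by
  conv_lhs => rw [pi_eq_sum_univ' u, map_sum]
  exact Finset.sum_congr rfl fun t _ => by rw [map_smul, smul_eq_mul, mul_comm]

/-- The symmetrised unknowns and the jet. -/
noncomputable def sy (v : Ix → X3 → ℝ) (o : Eq4) (a b : Fin 3) (z : X3) : ℝ :=
  v (o, a, b) z + v (o, b, a) z
noncomputable def pi' (v : Ix → X3 → ℝ) (a b : Fin 3) (z : X3) : ℝ :=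
  ∑ j, D j (sy v (some j) a b) z
noncomputable def jv (v : Ix → X3 → ℝ) : Jt → X3 → ℝ := jet (sy v none) (pi' v)

variable {v : Ix → X3 → ℝ}

theorem sy_sm (hv : ∀ i, Sm (v i)) (o : Eq4) (a b : Fin 3) : Sm (sy v o a b) := (hv _).add (hv _)

theorem sy_symm (o : Eq4) (a b : Fin 3) : sy v o a b = sy v o b a := funext fun _ => add_comm _ _

theorem adm_jv (hv : ∀ i, Sm (v i)) : Adm (jv v) :=
  adm_jet (sy_sm hv none) (fun a b => ContDiff.sum fun j _ => D_sm j (sy_sm hv _ a b))
    (sy_symm none) fun a b => funext fun z => by simp only [pi', sy_symm _ a b]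

theorem jv_eq (hv : ∀ i, Sm (v i)) (x : Jt) (z : X3) : jv v x z =
    j2 x (fun t => D t.2.2 (D t.2.1 (v t.1)) z) + j1 x (fun t => D t.2 (v t.1) z) +
      j0 x fun i => v i z := by
  have e : ∀ o a b j, D j (sy v o a b) = fun z => D j (v (o, a, b)) z + D j (v (o, b, a)) z :=
    fun o a b j => D_add j (hv _) (hv _)
  have e2 : ∀ o a b j l, D l (D j (sy v o a b)) =
      fun z => D l (D j (v (o, a, b))) z + D l (D j (v (o, b, a))) z :=
    fun o a b j l => by rw [e, D_add l (D_sm j (hv _)) (D_sm j (hv _))]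
  cases x with
  | h a b => simp [jv, jet, sy, j0, j1, j2]
  | dh i a b => simp [jv, jet, e, j0, j1, j2]
  | ddh i k a b => simp [jv, jet, e2, j0, j1, j2]
  | p a b => simp [jv, jet, pi', e, j0, j1, j2]
  | dp i a b =>
    have := congrFun (D_sum i Finset.univ fun j => D_sm j (sy_sm hv (some j) a b)) z
    refine this.trans ?_
    simp [e2, j0, j1, j2]

/-- Every jet variable is one step applied to a sum of steps. -/
noncomputable def fv (v : Ix → X3 → ℝ) : Jt → X3 → ℝ
  | .ddh _ k a b => D k (sy v none a b)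
  | .h a b => sy v none a b
  | .dh _ a b => sy v none a b
  | .p a b => pi' v a b
  | .dp _ a b => pi' v a b
def ov : Jt → Option (Fin 3)
  | .ddh i _ _ _ => some i
  | .dh i _ _ => some i
  | .dp i _ _ => some i
  | _ => none

theorem jv_do (x : Jt) : jv v x = Do (ov x) (fv v x) := by cases x <;> rfl

variable {K : ℕ → ℝ} {W : X3 → ℝ} {n : ℕ} {c t : ℝ}

theorem fv_nw (s : Step K) (hW : Continuous W) (h : ∀ i, Nw W (n + 1) (v i) c) (x : Jt) :
    Nw (dn W) n (fv v x) (6 * (K n * c)) := by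
  have h1 : ∀ a o b d, Nw (dn W) n (Do a (sy v o b d)) (K n * (c + c)) := fun a o b d =>
    s.nw a hW ((h _).add (h _))
  have p := mul_nonneg (s.pos n) (h (none, 0, 0)).nonneg
  have h2 : ∀ a b, Nw (dn W) n (pi' v a b) (6 * (K n * c)) := fun a b =>
    (Nw.sum Finset.univ fun j _ => h1 (some j) (some j) a b).le (by simp; linarith)
  cases x with
  | h a b => exact (h1 none none a b).le (by linarith)
  | dh i a b => exact (h1 none none a b).le (by linarith)
  | ddh i k a b => exact (h1 (some k) none a b).le (by linarith)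
  | p a b => exact h2 a b
  | dp i a b => exact h2 a b

theorem fv_tw (s : Step K) (hW : Continuous W) (ht : ∀ i, Tw W (n + 2) (v i) t)
    (h : ∀ i, Nw W (n + 1) (v i) c) (x : Jt) :
    Tw (dn W) (n + 1) (fv v x) (6 * (4 * t + K n * c)) := by
  have h1 : ∀ a o b d, Tw (dn W) (n + 1) (Do a (sy v o b d)) (4 * (t + t) + K n * (c + c)) :=
    fun a o b d => s.tw a hW ((ht _).add (ht _) (h _).1 (h _).1) ((h _).add (h _))
  have p := mul_nonneg (s.pos n) (h (none, 0, 0)).nonneg
  have p' := (ht (none, 0, 0)).nonneg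
  have h2 : ∀ a b, Tw (dn W) (n + 1) (pi' v a b) (6 * (4 * t + K n * c)) := fun a b =>
    (Tw.sum Finset.univ (fun j _ => h1 (some j) (some j) a b) fun j =>
      D_sm j (sy_sm (fun i => (h i).1) _ a b)).le (by simp; linarith)
  cases x with
  | h a b => exact (h1 none none a b).le (by linarith)
  | dh i a b => exact (h1 none none a b).le (by linarith)
  | ddh i k a b => exact (h1 (some k) none a b).le (by linarith)
  | p a b => exact h2 a b
  | dp i a b => exact h2 a b

/-! ### The coefficients and the symbol -/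

variable {P : Type} {jb : P → Jt → X3 → ℝ} {lc : Eq4 → Jt → P → X3 → ℝ}

/-- The coefficient of the variable t. -/
noncomputable def cf {α : Type} [DecidableEq α] (lc : Eq4 → Jt → P → X3 → ℝ)
    (f : Jt → (α → ℝ) →ₗ[ℝ] ℝ) (k : Eq4) (t : α) (r : P) (z : X3) : ℝ :=
  ∑ x, lc k x r z * f x (Pi.single t 1)

theorem cf_ud {α : Type} [DecidableEq α] (hs : Str jb lc) (f : Jt → (α → ℝ) →ₗ[ℝ] ℝ) (k : Eq4)
    (t : α) : UD (cf lc f k t) := UD.sum _ fun x => (hs.ud k x).mul (ud_c _)

theorem cf_sum {α : Type} [Fintype α] [DecidableEq α] (f : Jt → (α → ℝ) →ₗ[ℝ] ℝ) (k : Eq4) (r : P)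
    (z : X3) (u : α → ℝ) : ∑ t, cf lc f k t r z * u t = ∑ x, lc k x r z * f x u := by
  simp only [cf, Finset.sum_mul]
  rw [Finset.sum_comm]
  exact Finset.sum_congr rfl fun x _ => by
    rw [lin_sum (f x) u, Finset.mul_sum]; simp only [mul_assoc]

theorem symb (i : Ix) (k : Eq4) (r : P) (z : X3) (H : Fin 3 → Fin 3 → ℝ) :
    ∑ j, ∑ l, cf lc j2 k (i, j, l) r z * H j l =
      ∑ x, lc k x r z * j2 x fun t => if t.1 = i then H t.2.1 t.2.2 else 0 := by
  rw [← cf_sum, Fintype.sum_prod_type, Finset.sum_eq_single i (fun b _ hb => by simp [hb])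
    (by simp), Fintype.sum_prod_type]
  simp

theorem symb_h (hs : Str jb lc) (a b : Fin 3) (r : P) (z : X3) (H : Eq4 → Fin 3 → Fin 3 → ℝ) :
    ∑ k, ∑ j, ∑ l, cf lc j2 k ((none, a, b), j, l) r z * H k j l =
      ∑ k, ∑ l, (SS (Gm jb r z) a b k l + SS (Gm jb r z) b a k l) * H none l k := by
  simp only [symb, Fintype.sum_option, hs.mom]
  rw [sum_Jt]
  simp only [hs.hddh, hs.hdp]
  simp [PM, j2, mul_add, add_mul, Finset.sum_add_distrib, ite_and]

theorem symb_p (hs : Str jb lc) (j b c : Fin 3) (r : P) (z : X3) (H : Eq4 → Fin 3 → Fin 3 → ℝ) :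
    ∑ k, ∑ j', ∑ l, cf lc j2 k ((some j, b, c), j', l) r z * H k j' l =
      ∑ a, Gm jb r z a b * H (some a) j c + ∑ a, Gm jb r z a c * H (some a) j b := by
  simp only [symb, Fintype.sum_option, hs.mom]
  rw [sum_Jt]
  simp only [hs.hddh, hs.hdp]
  simp [PM, j2, mul_add, add_mul, Finset.sum_add_distrib, ite_and, hm, at']

theorem fin_bd {α : Type} [Fintype α] {w : α → P → X3 → ℝ} (h : ∀ a, UD (w a)) :
    ∃ M, 0 ≤ M ∧ ∀ a r z, |w a r z| ≤ M := by
  choose M h0 hM using fun a => (h a).bd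
  exact ⟨∑ a, M a, Finset.sum_nonneg fun a _ => h0 a, fun a r z =>
    (hM a r z).trans (Finset.single_le_sum (fun a _ => h0 a) (Finset.mem_univ a))⟩

theorem sum3_le {w T : Fin 3 → ℝ} {M s : ℝ} (hw : ∀ a, |w a| ≤ M) (hT : ∀ a, |T a| ≤ s) :
    |∑ a, w a * T a| ≤ 3 * (M * s) :=
  (Finset.abs_sum_le_sum_abs _ _).trans ((Finset.sum_le_sum fun a _ => (abs_mul _ _).trans_le
    (mul_le_mul (hw a) (hT a) (abs_nonneg _) ((abs_nonneg _).trans (hw a)))).trans (by simp))

/-- The symmetric elementary matrix. -/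
def em (k l : Fin 3) : M3 := Matrix.single k l 1 + Matrix.single l k 1

theorem inv_h {G : M3} (hs : ∀ a b, G a b = G b a) {H : Fin 3 → Fin 3 → ℝ}
    (hH : ∀ j l, H j l = H l j) (k0 l0 : Fin 3) : ∑ a, ∑ b, par G (em k0 l0) a b *
      ∑ k, ∑ l, (SS G a b k l + SS G b a k l) * H l k = 4 * G.det ^ 3 * H k0 l0 := by
  have e : ∑ a, ∑ b, par G (em k0 l0) a b * ∑ k, ∑ l, SS G a b k l * H l k =
      2 * G.det ^ 3 * H k0 l0 := by
    have : ∀ k l, ∑ a, ∑ b, par G (em k0 l0) a b * (SS G a b k l * H l k) =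
        G.det ^ 3 * (em k0 l0 k l * H l k) := fun k l => by
      rw [← mul_assoc, ← SS_par hs, Finset.sum_mul]
      exact Finset.sum_congr rfl fun a _ => by
        rw [Finset.sum_mul]; exact Finset.sum_congr rfl fun b _ => by ring
    have e4 : ∀ f : Fin 3 → Fin 3 → Fin 3 → Fin 3 → ℝ,
        ∑ a, ∑ b, ∑ k, ∑ l, f a b k l = ∑ k, ∑ l, ∑ a, ∑ b, f a b k l := fun f => by
      simp only [Fin.sum_univ_three]; ring
    simp only [Finset.mul_sum]
    rw [e4]
    simp only [this, ← Finset.mul_sum]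
    simp [em, Matrix.single, add_mul, Finset.sum_add_distrib, ite_and, hH l0 k0]
    ring
  have q : ∀ a b, em k0 l0 a b = em k0 l0 b a := fun a b => by
    simp only [em, Matrix.single, Matrix.add_apply, Matrix.of_apply, and_comm, add_comm]
  simp only [add_mul, Finset.sum_add_distrib, mul_add]
  rw [e, Finset.sum_comm]
  simp only [fun a b => par_symm hs q b a]
  rw [e]
  ring

theorem inj (hb : Base jb) (hs : Str jb lc) : ∃ B : ℝ, ∀ r z (H : Eq4 → Fin 3 → Fin 3 → ℝ) (s : ℝ),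
    (∀ k j l, H k j l = H k l j) →
    (∀ i, |∑ k, ∑ j, ∑ l, cf lc j2 k (i, j, l) r z * H k j l| ≤ s) → ∀ k j l, |H k j l| ≤ B * s := by
  obtain ⟨M, M0, hM⟩ := fin_bd (α := Fin 3 × Fin 3 × Fin 3 × Fin 3) fun q =>
    ((ud_det_inv hb).pow 3).mul (ud_par hb (q := fun _ _ => em q.1 q.2.1) (fun _ _ => ud_c _)
      q.2.2.1 q.2.2.2)
  obtain ⟨N, N0, hN⟩ := fin_bd (α := Fin 3 × Fin 3) fun q =>
    (ud_det_inv hb).mul (ud_adj hb q.1 q.2)
  refine ⟨9 * M + 9 * N, fun r z H s hH h k j l => ?_⟩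
  have s0 : 0 ≤ s := (abs_nonneg _).trans (h (none, 0, 0))
  have d := (det_pos hb r z).ne'
  have p1 := mul_nonneg M0 s0
  have p2 := mul_nonneg N0 s0
  cases k with
  | none =>
    have e := inv_h (Gm_symm hb r z) (hH none) j l
    simp only [← symb_h hs] at e
    have := sum3_le (w := fun _ => 1) (M := 1) (by simp) fun a => sum3_le (fun b => hM (j, l, a, b) r z)
      fun b => h (none, a, b)
    simp only [one_mul, mul_assoc, ← Finset.mul_sum] at this
    rw [e, show (Gm jb r z).det⁻¹ ^ 3 * (4 * (Gm jb r z).det ^ 3 * H none j l) = 4 * H none j l by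
      field_simp, abs_mul, abs_of_pos four_pos] at this
    nlinarith [abs_nonneg (H none j l)]
  | some a =>
    have y : ∀ c, |∑ a, Gm jb r z a c * H (some a) j l| ≤ 3 * s := fun c => by
      have h1 := abs_le.1 (h (some j, c, l))
      have h2 := abs_le.1 (h (some l, c, j))
      have h3 := abs_le.1 (h (some c, j, l))
      rw [symb_p hs] at h1 h2 h3
      simp only [hH _ l j, hH _ c l, hH _ c j] at h1 h2 h3
      rw [abs_le]
      constructor <;> linarith [h1.1, h1.2, h2.1, h2.2, h3.1, h3.2]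
    have := sum3_le (fun c => hN (c, a) r z) y
    have e : ∑ c, (Gm jb r z).det⁻¹ * (Gm jb r z).adjugate c a *
        ∑ a, Gm jb r z a c * H (some a) j l = H (some a) j l := by
      have m := fun a' => congrFun (congrFun (Matrix.mul_adjugate (Gm jb r z)) a') a
      simp only [Matrix.mul_apply] at m
      simp only [Finset.mul_sum]
      rw [Finset.sum_comm, Finset.sum_congr rfl fun a' _ => show _ = (Gm jb r z).det⁻¹ *
        ((∑ c, Gm jb r z a' c * (Gm jb r z).adjugate c a) * H (some a') j l) by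
          rw [Finset.sum_mul, Finset.mul_sum]; exact Finset.sum_congr rfl fun c _ => by ring]
      simp [m, Matrix.one_apply, d]
    rw [e] at this
    nlinarith

/-- **SPEC** -/
theorem spec (h0 : SOL0) : SOL := by
  intro P jb lc hb hs z0 ρ hρ
  obtain ⟨B, hB⟩ := inj hb hs
  obtain ⟨K, s⟩ := ex_step
  have u2 := fun (i : Ix) k j l => cf_ud hs j2 k (i, j, l)
  have u1 := fun (i : Ix) k j => cf_ud hs j1 k (i, j)
  have w1 : ∀ i k j, UD fun r => c1 (fun i k j l => cf lc j2 k (i, j, l) r)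
      (fun i k j => cf lc j1 k (i, j) r) i k j := fun i k j =>
    (UD.sum _ fun l => ((u2 i k j l).D l).add ((u2 i k l j).D l)).sub (u1 i k j)
  obtain ⟨ψ, E, C0, C, hψ, hE, c0', hC, h⟩ := h0 P Ix Eq4 (fun i k j l => cf lc j2 k (i, j, l))
    (fun i k j r => c1 (fun i k j l => cf lc j2 k (i, j, l) r) (fun i k j => cf lc j1 k (i, j) r)
      i k j) (fun i k r => c0 (fun i k j l => cf lc j2 k (i, j, l) r)
        (fun i k j => cf lc j1 k (i, j) r) (fun i k => cf lc j0 k i r) i k) B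
    (fun i k j l => (u2 i k j l).ub) (fun i k j => (w1 i k j).ub)
    (fun i k => (((cf_ud hs j0 k i).add (UD.sum _ fun j => (w1 i k j).D j)).sub
      (UD.sum _ fun j => UD.sum _ fun l => ((u2 i k j l).D j).D l)).ub) hB z0 ρ hρ
  have k0 := s.pos
  have cW := hψ.sw.cont
  refine ⟨ψ, E, 96 * C0, fun n => (96 + 24 * K (n + 1) + 6 * (K n * K (n + 1))) * C n, hψ, hE,
    by positivity, fun n => by have := k0 n; have := k0 (n + 1); have := hC n; positivity,
    fun r f hf => ?_⟩
  obtain ⟨v, θ, e, hN, hT, hθ⟩ := h r f hf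
  have hv : ∀ i, Sm (v i) := fun i => by
    choose c hc using fun k => hf k 0
    exact (hN 0 (∑ k, c k) (fun k => (hc k).le (Finset.single_le_sum (fun k _ => (hc k).nonneg)
      (Finset.mem_univ k))) i).1
  refine ⟨jv v, fun q => θ q.1 q.2, adm_jv hv, fun k z => ?_, fun n b hf x => ?_,
    fun n a b ha hf x => ?_, fun M M0 hM q => (hθ M M0 hM _ _).trans (by nlinarith)⟩
  · rw [← e, lop_eq _ _ _ hv (fun i k j l => (u2 i k j l).1 r) fun i k j => (u1 i k j).1 r, Lin]
    simp only [jv_eq hv, mul_add, Finset.sum_add_distrib, ← cf_sum, Fintype.sum_prod_type (α₁ := Ix),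
      Fintype.sum_prod_type (α₁ := Fin 3) (α₂ := Fin 3)]
  · rw [ww_dn, jv_do]
    have := mul_nonneg (hC n) (hf none).nonneg
    exact (s.nw _ (dn_cont cW) (fv_nw s cW (hN n b hf) x)).le (by nlinarith [k0 (n + 1)])
  · rw [ww_dn, jv_do]
    exact (s.tw _ (dn_cont cW) (fv_tw s cW (hT n a b ha hf) (hN n b hf) x)
      (fv_nw s cW (hN n b hf) x)).le (le_of_eq (by ring))

end Vale.Agent.P354KS
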